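import Vale.Agent.P334.Greedy

namespace Vale.Agent.P334

open Finset

variable {J F : Type*} [Fintype J]

/-- Cost of a set of facilities: sum over the clients of the distance to the nearest facility
(0 for the empty set). -/
noncomputable def cost (d : J → F → ℝ) (S : Finset F) : ℝ :=
  ∑ j, if h : S.Nonempty then S.inf' h (d j) else 0

/-- Greedy run: each step adds a facility whose addition makes the cost smallest. -/
def IsGreedy [DecidableEq F] (d : J → F → ℝ) (S : ℕ → Finset F) : Prop :=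
  ∀ t, ∃ i, S (t + 1) = insert i (S t) ∧
    ∀ i', cost d (insert i (S t)) ≤ cost d (insert i' (S t))

variable [Fintype F] [Nonempty F] [DecidableEq F]

/-- Largest distance of a client to a facility. -/
noncomputable def top (d : J → F → ℝ) (j : J) : ℝ :=
  (univ : Finset F).sup' univ_nonempty (d j)

omit [Fintype J] [DecidableEq F] in
theorem le_top (d : J → F → ℝ) (j : J) (i : F) : d j i ≤ top d j :=
  Finset.le_sup' (d j) (mem_univ i)

omit [DecidableEq F] in
theorem cap_eq (d : J → F → ℝ) {S : Finset F} (h : S.Nonempty) :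
    capCost d (top d) S = cost d S := by
  unfold capCost cost
  refine Finset.sum_congr rfl fun j _ => ?_
  rw [dif_pos h]
  apply le_antisymm
  · refine Finset.le_inf' _ _ fun i hi => ?_
    exact (Finset.fold_min_le (d j i)).2 (Or.inr ⟨i, hi, le_rfl⟩)
  · rcases exists_near d (top d) S j with h' | ⟨i, hi, h'⟩
    · rw [h']
      obtain ⟨i, hi⟩ := h
      exact (Finset.inf'_le (d j) hi).trans (le_top d j i)
    · rw [h']
      exact Finset.inf'_le (d j) hi

omit [Nonempty F] [DecidableEq F] [Fintype F] in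
theorem cap_empty (d : J → F → ℝ) (D : J → ℝ) : capCost d D (∅ : Finset F) = ∑ j, D j := by
  simp [capCost, near]

theorem exists_greedy (d : J → F → ℝ) (S0 : Finset F) :
    ∃ S : ℕ → Finset F, S 0 = S0 ∧ IsGreedy d S := by
  have h : ∀ S : Finset F, ∃ i : F, ∀ i', cost d (insert i S) ≤ cost d (insert i' S) := by
    intro S
    obtain ⟨i, _, hi⟩ := Finset.exists_min_image (univ : Finset F) (fun i => cost d (insert i S))
      univ_nonempty
    exact ⟨i, fun i' => hi i' (mem_univ _)⟩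
  choose g hg using h
  refine ⟨fun t => Nat.rec S0 (fun _ S => insert (g S) S) t, rfl, fun t => ⟨_, rfl, ?_⟩⟩
  intro i'
  exact hg _ i'

theorem greedy_iter {d : J → F → ℝ} {S : ℕ → Finset F} (hS : IsGreedy d S) {k : ℕ} (hk : 1 ≤ k)
    {T : Finset F} (hT0 : T.Nonempty) (hT : T.card ≤ k)
    (h0 : cost d T ≤ capCost d (top d) (S 0)) (t : ℕ) :
    capCost d (top d) (S t) - cost d T
      ≤ (1 - 1 / (k : ℝ)) ^ t * (capCost d (top d) (S 0) - cost d T) := by
  rw [← cap_eq d hT0] at h0 ⊢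
  refine iter d (top d) S T k hk hT h0 ?_ ?_ t
  · intro t i _
    obtain ⟨i0, h1, h2⟩ := hS t
    rw [h1, cap_eq d (insert_nonempty _ _), cap_eq d (insert_nonempty _ _)]
    exact h2 i
  · intro t
    obtain ⟨i0, h1, _⟩ := hS t
    rw [h1]
    exact near_mono d (top d) (S t) i0

omit [Fintype F] [Nonempty F] in
theorem card_greedy {d : J → F → ℝ} {S : ℕ → Finset F} (hS : IsGreedy d S) (t : ℕ) :
    (S t).card ≤ (S 0).card + t := by
  induction t with
  | zero => simp
  | succ t ih =>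
    obtain ⟨i, h, _⟩ := hS t
    rw [h]
    have := Finset.card_insert_le i (S t)
    omega

omit [Fintype F] [Nonempty F] in
theorem sub_greedy {d : J → F → ℝ} {S : ℕ → Finset F} (hS : IsGreedy d S) (t : ℕ) :
    S 0 ⊆ S t := by
  induction t with
  | zero => exact Finset.Subset.refl _
  | succ t ih =>
    obtain ⟨i, h, _⟩ := hS t
    rw [h]
    exact ih.trans (Finset.subset_insert _ _)

theorem mono_greedy {d : J → F → ℝ} {S : ℕ → Finset F} (hS : IsGreedy d S) (t : ℕ) :
    capCost d (top d) (S t) ≤ capCost d (top d) (S 0) := by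
  induction t with
  | zero => exact le_rfl
  | succ t ih =>
    obtain ⟨i, h, _⟩ := hS t
    rw [h]
    exact (near_mono d (top d) (S t) i).trans ih

/-- General start set. -/
theorem start {d : J → F → ℝ} {S : ℕ → Finset F} (hS : IsGreedy d S) {k : ℕ} (hk : 1 ≤ k)
    {T : Finset F} (hT0 : T.Nonempty) (hT : T.card ≤ k) (h0 : (S 0).Nonempty) (t : ℕ) :
    cost d (S t) ≤ cost d T + (1 - 1 / (k : ℝ)) ^ t * (cost d (S 0) - cost d T) := by
  have hne : (S t).Nonempty := h0.mono (sub_greedy hS t)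
  have hk0 : (1 : ℝ) ≤ k := by exact_mod_cast hk
  have hq0 : 0 ≤ 1 - 1 / (k : ℝ) := by
    have : 1 / (k : ℝ) ≤ 1 := by rw [div_le_one (by linarith)]; exact hk0
    linarith
  have hq1 : 1 - 1 / (k : ℝ) ≤ 1 := by
    have : 0 ≤ 1 / (k : ℝ) := by positivity
    linarith
  rw [← cap_eq d hne, ← cap_eq d h0]
  by_cases hc : cost d T ≤ capCost d (top d) (S 0)
  · have := greedy_iter hS hk hT0 hT hc t
    linarith
  · push Not at hc
    have h1 := mono_greedy hS t
    have h2 : (1 - 1 / (k : ℝ)) ^ t ≤ 1 := pow_le_one₀ hq0 hq1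
    nlinarith

/-- Empty start set. -/
theorem start_empty {d : J → F → ℝ} {S : ℕ → Finset F} (hS : IsGreedy d S) {k : ℕ} (hk : 1 ≤ k)
    {T : Finset F} (hT0 : T.Nonempty) (hT : T.card ≤ k) (h0 : S 0 = ∅) (D : ℝ)
    (hD : ∑ j, top d j ≤ D * cost d T) :
    cost d (S k) ≤ (1 + (D - 1) / Real.exp 1) * cost d T := by
  have hk0 : (1 : ℝ) ≤ k := by exact_mod_cast hk
  have hne : (S k).Nonempty := by
    obtain ⟨m, rfl⟩ : ∃ m, k = m + 1 := ⟨k - 1, by omega⟩
    obtain ⟨i, h, _⟩ := hS m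
    rw [h]
    exact insert_nonempty _ _
  have hcap : capCost d (top d) (S 0) = ∑ j, top d j := by rw [h0, cap_empty]
  have hle : cost d T ≤ ∑ j, top d j := by
    rw [← cap_eq d hT0]
    unfold capCost
    exact Finset.sum_le_sum fun j _ => near_le_cap d (top d) T j
  have h1 := greedy_iter hS hk hT0 hT (by rw [hcap]; exact hle) k
  rw [cap_eq d hne, hcap] at h1
  have h2 : (1 - 1 / (k : ℝ)) ^ k ≤ Real.exp (-1) := Real.one_sub_div_pow_le_exp_neg hk0
  have h3 : (1 - 1 / (k : ℝ)) ^ k * (∑ j, top d j - cost d T)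
      ≤ Real.exp (-1) * ((D - 1) * cost d T) := by
    apply mul_le_mul h2 (by linarith) (by linarith) (Real.exp_pos _).le
  rw [Real.exp_neg] at h3
  have h4 : (1 + (D - 1) / Real.exp 1) * cost d T
      = cost d T + (Real.exp 1)⁻¹ * ((D - 1) * cost d T) := by
    rw [div_eq_mul_inv]; ring
  rw [h4]
  linarith

/-- Start set with at most b * k facilities and cost at most c * cost T. -/
theorem start_frac {d : J → F → ℝ} {S : ℕ → Finset F} (hS : IsGreedy d S) {k : ℕ} (hk : 1 ≤ k)
    {T : Finset F} (hT0 : T.Nonempty) (hT : T.card ≤ k) (h0 : (S 0).Nonempty)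
    (hcT : 0 ≤ cost d T) (b c : ℝ) (hb : ((S 0).card : ℝ) ≤ b * k) (hb1 : (S 0).card ≤ k)
    (hc : 1 ≤ c) (hc0 : cost d (S 0) ≤ c * cost d T) :
    cost d (S (k - (S 0).card)) ≤ (1 + (c - 1) / Real.exp (1 - b)) * cost d T := by
  have hk0 : (1 : ℝ) ≤ k := by exact_mod_cast hk
  have hkp : (0 : ℝ) < k := by linarith
  have hq0 : 0 ≤ 1 - 1 / (k : ℝ) := by
    have : 1 / (k : ℝ) ≤ 1 := by rw [div_le_one (by linarith)]; exact hk0
    linarith
  set s := (S 0).card with hs
  have h1 := start hS hk hT0 hT h0 (k - s)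
  have h2 : (1 - 1 / (k : ℝ)) ^ (k - s) ≤ Real.exp (-(1 - b)) := by
    have h3 : (1 - 1 / (k : ℝ)) ^ (k - s) ≤ (Real.exp (-(1 / (k : ℝ)))) ^ (k - s) :=
      pow_le_pow_left₀ hq0 (Real.one_sub_le_exp_neg _) _
    refine h3.trans ?_
    rw [← Real.exp_nat_mul]
    apply Real.exp_le_exp.2
    have h4 : ((k - s : ℕ) : ℝ) = k - s := by rw [Nat.cast_sub hb1]
    rw [h4]
    have h5 : (s : ℝ) / k ≤ b := by rw [div_le_iff₀ hkp]; exact hb
    have h6 : ((k : ℝ) - s) * -(1 / (k : ℝ)) = -1 + s / k := by field_simp; ring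
    rw [h6]
    linarith
  have h7 : (1 - 1 / (k : ℝ)) ^ (k - s) * (cost d (S 0) - cost d T)
      ≤ Real.exp (-(1 - b)) * ((c - 1) * cost d T) := by
    have h8 : (1 - 1 / (k : ℝ)) ^ (k - s) * (cost d (S 0) - cost d T)
        ≤ (1 - 1 / (k : ℝ)) ^ (k - s) * ((c - 1) * cost d T) :=
      mul_le_mul_of_nonneg_left (by linarith) (pow_nonneg hq0 _)
    refine h8.trans ?_
    exact mul_le_mul_of_nonneg_right h2 (mul_nonneg (by linarith) hcT)
  rw [Real.exp_neg] at h7
  have h9 : (1 + (c - 1) / Real.exp (1 - b)) * cost d T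
      = cost d T + (Real.exp (1 - b))⁻¹ * ((c - 1) * cost d T) := by
    rw [div_eq_mul_inv]; ring
  rw [h9]
  linarith

end Vale.Agent.P334
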