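import Mathlib

/-!
Greedy for k-median: decrease of the distance to the cost of any set with at most k facilities.
-/

namespace Vale.Agent.P334

open Finset

variable {J F : Type*} [Fintype J] [DecidableEq F]

/-- Capped distance of client j to the set S: min of D j and the distances to S. -/
def near (d : J → F → ℝ) (D : J → ℝ) (S : Finset F) (j : J) : ℝ := S.fold min (D j) (d j)

/-- Capped cost. -/
def capCost (d : J → F → ℝ) (D : J → ℝ) (S : Finset F) : ℝ := ∑ j, near d D S j

omit [Fintype J] in
theorem near_insert (d : J → F → ℝ) (D : J → ℝ) (S : Finset F) (i : F) (j : J) :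
    near d D (insert i S) j = min (d j i) (near d D S j) := by
  unfold near
  exact Finset.fold_insert_idem

omit [Fintype J] [DecidableEq F] in
theorem near_le_cap (d : J → F → ℝ) (D : J → ℝ) (S : Finset F) (j : J) :
    near d D S j ≤ D j := by
  unfold near
  exact (Finset.fold_min_le (D j)).2 (Or.inl le_rfl)

omit [Fintype J] [DecidableEq F] in
theorem exists_near (d : J → F → ℝ) (D : J → ℝ) (S : Finset F) (j : J) :
    near d D S j = D j ∨ ∃ i ∈ S, near d D S j = d j i := by
  classical
  induction S using Finset.induction_on with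
  | empty => left; simp [near]
  | insert a s ha ih =>
    rw [near_insert]
    rcases min_choice (d j a) (near d D s j) with h | h
    · right; exact ⟨a, Finset.mem_insert_self _ _, h⟩
    · rw [h]
      rcases ih with h' | ⟨i, hi, h'⟩
      · left; exact h'
      · right; exact ⟨i, Finset.mem_insert_of_mem hi, h'⟩

theorem sum_gain (d : J → F → ℝ) (D : J → ℝ) (S T : Finset F) :
    capCost d D S - capCost d D T ≤ ∑ i ∈ T, (capCost d D S - capCost d D (insert i S)) := by
  have h1 : ∑ i ∈ T, (capCost d D S - capCost d D (insert i S))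
      = ∑ j, ∑ i ∈ T, (near d D S j - near d D (insert i S) j) := by
    rw [Finset.sum_comm]
    refine Finset.sum_congr rfl fun i _ => ?_
    unfold capCost
    rw [Finset.sum_sub_distrib]
  rw [h1]
  unfold capCost
  rw [← Finset.sum_sub_distrib]
  refine Finset.sum_le_sum fun j _ => ?_
  have hnn : ∀ i ∈ T, 0 ≤ near d D S j - near d D (insert i S) j := by
    intro i _
    rw [near_insert]
    have := min_le_right (d j i) (near d D S j)
    linarith
  rcases exists_near d D T j with h | ⟨i, hi, h⟩
  · rw [h]
    have := near_le_cap d D S j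
    have := Finset.sum_nonneg hnn
    linarith
  · have h2 := Finset.single_le_sum hnn hi
    rw [near_insert] at h2
    have := min_le_left (d j i) (near d D S j)
    linarith

/-- One greedy step. -/
theorem step (d : J → F → ℝ) (D : J → ℝ) (S S' T : Finset F) (k : ℕ) (hk : 1 ≤ k)
    (hT : T.card ≤ k) (hST : capCost d D T ≤ capCost d D S)
    (hg : ∀ i ∈ T, capCost d D S' ≤ capCost d D (insert i S)) (hS' : capCost d D S' ≤ capCost d D S) :
    capCost d D S' - capCost d D T ≤ (1 - 1 / (k : ℝ)) * (capCost d D S - capCost d D T) := by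
  have hk0 : (0 : ℝ) < k := by exact_mod_cast hk
  have h1 := sum_gain d D S T
  have h2 : ∑ i ∈ T, (capCost d D S - capCost d D (insert i S))
      ≤ ∑ _i ∈ T, (capCost d D S - capCost d D S') :=
    Finset.sum_le_sum fun i hi => by have := hg i hi; linarith
  rw [Finset.sum_const, nsmul_eq_mul] at h2
  have h3 : (T.card : ℝ) * (capCost d D S - capCost d D S')
      ≤ k * (capCost d D S - capCost d D S') :=
    mul_le_mul_of_nonneg_right (by exact_mod_cast hT) (by linarith)
  have h4 : (capCost d D S - capCost d D T) / k ≤ capCost d D S - capCost d D S' := by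
    rw [div_le_iff₀ hk0]; linarith
  have h5 : (1 - 1 / (k : ℝ)) * (capCost d D S - capCost d D T)
      = (capCost d D S - capCost d D T) - (capCost d D S - capCost d D T) / k := by ring
  rw [h5]; linarith

theorem near_mono (d : J → F → ℝ) (D : J → ℝ) (S : Finset F) (i : F) :
    capCost d D (insert i S) ≤ capCost d D S := by
  unfold capCost
  refine Finset.sum_le_sum fun j _ => ?_
  rw [near_insert]
  exact min_le_right _ _

/-- Iteration. -/
theorem iter (d : J → F → ℝ) (D : J → ℝ) (S : ℕ → Finset F) (T : Finset F) (k : ℕ) (hk : 1 ≤ k)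
    (hT : T.card ≤ k) (hST : capCost d D T ≤ capCost d D (S 0))
    (hg : ∀ t, ∀ i ∈ T, capCost d D (S (t + 1)) ≤ capCost d D (insert i (S t)))
    (hm : ∀ t, capCost d D (S (t + 1)) ≤ capCost d D (S t)) (t : ℕ) :
    capCost d D (S t) - capCost d D T
      ≤ (1 - 1 / (k : ℝ)) ^ t * (capCost d D (S 0) - capCost d D T) := by
  have hk0 : (1 : ℝ) ≤ k := by exact_mod_cast hk
  have hq : 0 ≤ 1 - 1 / (k : ℝ) := by
    have : 1 / (k : ℝ) ≤ 1 := by rw [div_le_one (by linarith)]; exact hk0
    linarith
  induction t with
  | zero => simp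
  | succ t ih =>
    by_cases hc : capCost d D T ≤ capCost d D (S t)
    · have h1 := step d D (S t) (S (t + 1)) T k hk hT hc (hg t) (hm t)
      calc capCost d D (S (t + 1)) - capCost d D T
          ≤ (1 - 1 / (k : ℝ)) * (capCost d D (S t) - capCost d D T) := h1
        _ ≤ (1 - 1 / (k : ℝ)) * ((1 - 1 / (k : ℝ)) ^ t
            * (capCost d D (S 0) - capCost d D T)) := mul_le_mul_of_nonneg_left ih hq
        _ = _ := by ring
    · have h1 := hm t
      have h2 : 0 ≤ (1 - 1 / (k : ℝ)) ^ (t + 1) * (capCost d D (S 0) - capCost d D T) :=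
        mul_nonneg (pow_nonneg hq _) (by linarith)
      push Not at hc
      linarith

end Vale.Agent.P334
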